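import Mathlib

/-!
P092 (helper964), project FI: no minimal projection in the amplification of an infinite group von
Neumann algebra, the core of the argument.
-/

set_option linter.all false

open scoped InnerProductSpace
open ContinuousLinearMap Finset

namespace Vale.Agent.P092.H964.FI

variable {Γ H : Type} [Group Γ] [NormedAddCommGroup H] [InnerProductSpace ℂ H] [CompleteSpace H]

/-- a finite subset of an infinite group which avoids a finite set of differences -/
theorem exists_spread [Infinite Γ] {F : Set Γ} (hF : F.Finite) (n : ℕ) :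
    ∃ g : Fin n → Γ, ∀ i j, i ≠ j → (g i)⁻¹ * g j ∉ F := by
  induction n with
  | zero => exact ⟨fun i => i.elim0, fun i => i.elim0⟩
  | succ n ih =>
    obtain ⟨g, hg⟩ := ih
    have hfin : (⋃ i : Fin n, ((fun x => g i * x) '' F ∪ (fun x => g i * x⁻¹) '' F)).Finite :=
      Set.finite_iUnion fun i => (hF.image _).union (hF.image _)
    obtain ⟨x, hx⟩ := hfin.infinite_compl.nonempty
    refine ⟨Fin.cons x g, fun i j => ?_⟩
    refine Fin.cases ?_ (fun i => ?_) i <;> refine Fin.cases ?_ (fun j => ?_) j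
    · intro h; exact absurd rfl h
    · intro _ h
      apply hx
      refine Set.mem_iUnion.mpr ⟨j, Or.inr ⟨_, h, ?_⟩⟩
      simp
    · intro _ h
      apply hx
      refine Set.mem_iUnion.mpr ⟨i, Or.inl ⟨_, h, ?_⟩⟩
      simp
    · intro h
      simp only [Fin.cons_succ]
      exact hg i j fun h' => h (congrArg Fin.succ h')

theorem norm_sum_two {n : ℕ} (p : Fin n → (H →L[ℂ] H)) (hp : ∀ i, IsSelfAdjoint (p i))
    (hpp : ∀ i, p i * p i = p i) {ε : ℝ} (hε : (n : ℝ) ^ 2 * ε ≤ 1)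
    (h : ∀ i j, i ≠ j → ‖p i * p j‖ ≤ ε) : ‖∑ i, p i‖ ≤ 2 := by
  obtain ⟨S, hS⟩ : ∃ S, S = ∑ i, p i := ⟨_, rfl⟩
  have hSa : IsSelfAdjoint S := by
    rw [hS]
    exact isSelfAdjoint_sum _ fun i _ => hp i
  have hSS : S * S = S + ∑ i, ∑ j ∈ univ.erase i, p i * p j := by
    rw [hS, Finset.sum_mul_sum, ← Finset.sum_add_distrib]
    refine Finset.sum_congr rfl fun i _ => ?_
    rw [← Finset.add_sum_erase univ _ (Finset.mem_univ i), hpp]
  have hn : ‖S‖ * ‖S‖ = ‖S * S‖ := by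
    have := CStarRing.norm_star_mul_self (x := S)
    rw [hSa.star_eq] at this
    exact this.symm
  have hε0 : 0 ≤ ε ∨ n ≤ 1 := by
    by_cases h1 : n ≤ 1
    · exact Or.inr h1
    · left
      have h2 := h ⟨0, by omega⟩ ⟨1, by omega⟩ (by simp)
      exact (norm_nonneg _).trans h2
  have hR : ‖∑ i, ∑ j ∈ univ.erase i, p i * p j‖ ≤ 1 := by
    rcases hε0 with hε0 | hn1
    · calc ‖∑ i, ∑ j ∈ univ.erase i, p i * p j‖ ≤ ∑ i : Fin n, ∑ j ∈ univ.erase i, ε := by
            refine (norm_sum_le _ _).trans (Finset.sum_le_sum fun i _ => ?_)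
            refine (norm_sum_le _ _).trans (Finset.sum_le_sum fun j hj => ?_)
            exact h i j (Finset.ne_of_mem_erase hj).symm
        _ ≤ ∑ i : Fin n, ∑ j : Fin n, ε := by
            refine Finset.sum_le_sum fun i _ => ?_
            exact Finset.sum_le_sum_of_subset_of_nonneg (Finset.subset_univ _) fun _ _ _ => hε0
        _ = (n : ℝ) ^ 2 * ε := by simp; ring
        _ ≤ 1 := hε
    · have h3 : ∀ i : Fin n, (univ.erase i : Finset (Fin n)) = ∅ := by
        intro i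
        ext j
        simp only [Finset.mem_erase, Finset.mem_univ, and_true, Finset.notMem_empty, iff_false,
          not_not]
        apply Fin.ext
        omega
      simp [h3]
  have h4 : ‖S‖ * ‖S‖ ≤ ‖S‖ + 1 := by
    rw [hn, hSS]
    exact (norm_add_le _ _).trans (by linarith)
  rw [← hS]
  nlinarith [norm_nonneg S]

theorem adj_mul (x y : H →L[ℂ] H) : adjoint (x * y) = adjoint y * adjoint x := star_mul x y

/-- **No minimal projection, core.** -/
theorem nom_core [Infinite Γ] (U : Γ →* (H →L[ℂ] H)) (hU : ∀ g, adjoint (U g) = U g⁻¹)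
    {e : H →L[ℂ] H} (he : adjoint e = e) (hee : e * e = e) (c : Γ → ℂ)
    (hc : ∀ g, e * U g * e = c g • e) (hc0 : ∀ ε : ℝ, 0 < ε → {g | ε < ‖c g‖}.Finite)
    {J : Type} [Fintype J] (δ : J → H) (t : ℝ)
    (ht : ∀ g, ∑ j, (⟪δ j, (U g * e * U g⁻¹) (δ j)⟫_ℂ).re = t) : t ≤ 0 := by
  obtain ⟨C, hC⟩ : ∃ C : ℝ, C = ∑ j, ‖δ j‖ * ‖δ j‖ := ⟨_, rfl⟩
  have hC0 : 0 ≤ C := by
    rw [hC]
    exact Finset.sum_nonneg fun j _ => mul_nonneg (norm_nonneg _) (norm_nonneg _)
  have hUU : ∀ g h : Γ, U g * U h = U (g * h) := fun g h => (map_mul U g h).symm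
  have hU1 : ∀ g, U g⁻¹ * U g = 1 := fun g => by rw [hUU, inv_mul_cancel, map_one]
  have hUn : ∀ g, ‖U g‖ ≤ 1 := by
    intro g
    have h1 : ‖U g‖ * ‖U g‖ = ‖adjoint (U g) * U g‖ := (CStarRing.norm_star_mul_self (x := U g)).symm
    rw [hU, hU1] at h1
    have h2 : ‖(1 : H →L[ℂ] H)‖ ≤ 1 := ContinuousLinearMap.norm_id_le
    nlinarith [norm_nonneg (U g)]
  have hen : ‖e‖ ≤ 1 := by
    have h1 : ‖e‖ * ‖e‖ = ‖adjoint e * e‖ := (CStarRing.norm_star_mul_self (x := e)).symm
    rw [he, hee] at h1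
    nlinarith [norm_nonneg e]
  have key : ∀ n : ℕ, n * t ≤ 2 * C := by
    intro n
    obtain ⟨ε, hε⟩ : ∃ ε : ℝ, ε = 1 / ((n : ℝ) ^ 2 + 1) := ⟨_, rfl⟩
    have hε0 : 0 < ε := by rw [hε]; positivity
    have hε1 : (n : ℝ) ^ 2 * ε ≤ 1 := by
      rw [hε, mul_one_div, div_le_one (by positivity)]
      linarith
    obtain ⟨g, hg⟩ := exists_spread (hc0 ε hε0) n
    have hsum := norm_sum_two (fun i => U (g i) * e * U (g i)⁻¹) (fun i => by
        change adjoint _ = _
        rw [adj_mul, adj_mul, he, hU, hU, inv_inv, mul_assoc]) (fun i => by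
        calc U (g i) * e * U (g i)⁻¹ * (U (g i) * e * U (g i)⁻¹)
            = U (g i) * e * (U (g i)⁻¹ * U (g i)) * e * U (g i)⁻¹ := by noncomm_ring
          _ = U (g i) * (e * e) * U (g i)⁻¹ := by rw [hU1]; noncomm_ring
          _ = _ := by rw [hee]) hε1 (fun i j hij => by
        have h1 : U (g i) * e * U (g i)⁻¹ * (U (g j) * e * U (g j)⁻¹) =
            c ((g i)⁻¹ * g j) • (U (g i) * e * U (g j)⁻¹) := by
          calc U (g i) * e * U (g i)⁻¹ * (U (g j) * e * U (g j)⁻¹)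
              = U (g i) * (e * (U (g i)⁻¹ * U (g j)) * e) * U (g j)⁻¹ := by noncomm_ring
            _ = _ := by rw [hUU, hc]; simp
        rw [h1, norm_smul]
        have h2 : ‖U (g i) * e * U (g j)⁻¹‖ ≤ 1 := by
          calc ‖U (g i) * e * U (g j)⁻¹‖ ≤ ‖U (g i)‖ * ‖e‖ * ‖U (g j)⁻¹‖ :=
                (norm_mul_le _ _).trans (mul_le_mul_of_nonneg_right (norm_mul_le _ _)
                  (norm_nonneg _))
            _ ≤ 1 * 1 * 1 := by
                have := hUn (g i)
                have h3 := hUn (g j)⁻¹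
                gcongr
            _ = 1 := by norm_num
        have h3 : ‖c ((g i)⁻¹ * g j)‖ ≤ ε := not_lt.mp (hg i j hij)
        calc _ ≤ ε * 1 := mul_le_mul h3 h2 (norm_nonneg _) hε0.le
          _ = ε := mul_one ε)
    calc (n : ℝ) * t = ∑ i : Fin n, ∑ j, (⟪δ j, (U (g i) * e * U (g i)⁻¹) (δ j)⟫_ℂ).re := by
          simp only [ht, Finset.sum_const, Finset.card_univ, Fintype.card_fin, nsmul_eq_mul]
      _ = ∑ j, (⟪δ j, (∑ i, U (g i) * e * U (g i)⁻¹) (δ j)⟫_ℂ).re := by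
          rw [Finset.sum_comm]
          refine Finset.sum_congr rfl fun j _ => ?_
          rw [ContinuousLinearMap.sum_apply, inner_sum, Complex.re_sum]
      _ ≤ ∑ j, 2 * (‖δ j‖ * ‖δ j‖) := by
          refine Finset.sum_le_sum fun j _ => ?_
          calc (⟪δ j, (∑ i, U (g i) * e * U (g i)⁻¹) (δ j)⟫_ℂ).re
              ≤ ‖⟪δ j, (∑ i, U (g i) * e * U (g i)⁻¹) (δ j)⟫_ℂ‖ := Complex.re_le_norm _
            _ ≤ ‖δ j‖ * ‖(∑ i, U (g i) * e * U (g i)⁻¹) (δ j)‖ := norm_inner_le_norm _ _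
            _ ≤ ‖δ j‖ * (2 * ‖δ j‖) := by
                refine mul_le_mul_of_nonneg_left ?_ (norm_nonneg _)
                exact (ContinuousLinearMap.le_opNorm _ _).trans
                  (mul_le_mul_of_nonneg_right hsum (norm_nonneg _))
            _ = 2 * (‖δ j‖ * ‖δ j‖) := by ring
      _ = 2 * C := by rw [hC, Finset.mul_sum]
  by_contra hneg
  push Not at hneg
  obtain ⟨n, hn⟩ := exists_nat_gt (2 * C / t)
  rw [div_lt_iff₀ hneg] at hn
  exact absurd (key n) (not_le.mpr hn)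

end Vale.Agent.P092.H964.FI
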